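import Vale.Agent.P122.E.Defs

/-! # P122 / H563 : the least counting excess (helper563)

`enS` : the infimum of the exponents `e ≥ 0` such that the density of `D i` is at most `2 ^ ((e + ε) L)` for all `ε`.
`not_dens` : below it the density is not bounded; `dens_enS` : it is attained. -/

set_option autoImplicit false

namespace Vale.Agent.P122.H563

open Filter Topology Finset Vale.Agent.P127 Vale.Agent.P127.U Vale.Agent.P122.C2 Vale.Agent.P122.E

theorem Dens.mono {s : ℕ → Z2 → Fin 2 → ℝ} {n c : ℕ} {D : Set Nd} {lam lam' : ℝ} (h : lam ≤ lam')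
    (hD : Dens s n c D lam) : Dens s n c D lam' := by
  intro θ u1 u2 p v T U h1 h2 h3 hU
  refine (hD θ u1 u2 p v T U h1 h2 h3 hU).trans (mul_le_mul_of_nonneg_right h ?_)
  have : (0 : ℝ) < (1 / 2 : ℝ) ^ (c * n) := by positivity
  have : 0 < u1 := by linarith
  have : 0 < u2 := by linarith
  positivity

theorem Dens.subset {s : ℕ → Z2 → Fin 2 → ℝ} {n c : ℕ} {D D' : Set Nd} {lam : ℝ} (h : D' ⊆ D)
    (hD : Dens s n c D lam) : Dens s n c D' lam := fun θ u1 u2 p v T U h1 h2 h3 hU =>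
  hD θ u1 u2 p v T U h1 h2 h3 fun S hS => ⟨h (hU S hS).1, (hU S hS).2⟩

/-- one tube has density `1` -/
theorem one_le_of_dens {s : ℕ → Z2 → Fin 2 → ℝ} {n c : ℕ} {D : Set Nd} {lam : ℝ} (hD : Dens s n c D lam) {S : Nd}
    (hS : S ∈ D) : 1 ≤ lam := by
  have h := hD 0 ((1 / 2 : ℝ) ^ (c * n)) ((1 / 2 : ℝ) ^ (c * n)) (fun j => (S.o j : ℝ) / 2 ^ (c * n)) (s c S.τ) S.T {S}
    le_rfl le_rfl (pow_le_one₀ (by norm_num) (by norm_num)) fun S' hS' => by
      rw [Finset.mem_singleton] at hS'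
      subst hS'
      have e1 : (fun j => ((S'.o j : ℝ) / 2 ^ (c * n) - (S'.o j : ℝ) / 2 ^ (c * n))) = fun _ => (0 : ℝ) := by
        funext j; ring
      have e2 : (fun j => s c S'.τ j - s c S'.τ j) = fun _ => (0 : ℝ) := by
        funext j; ring
      refine ⟨hS, rfl, ?_, ?_, ?_, ?_⟩
      · rw [e1]; simp [fw]
      · rw [e1]; simp [fn]
      · rw [e2]; simp [fw]
      · rw [e2]; simp [fn]
  rw [Finset.card_singleton] at h
  have e3 : ((1 / 2 : ℝ) ^ (c * n) * (1 / 2 : ℝ) ^ (c * n) * 2 ^ (2 * c * n)) = 1 := by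
    rw [← pow_add, show 2 * c * n = c * n + c * n by ring, ← mul_pow]
    norm_num
  rw [e3, mul_one] at h
  exact_mod_cast h

/-- the set of the admissible exponents -/
def enSet (s : ℕ → ℕ → Z2 → Fin 2 → ℝ) (n : ℕ → ℕ) (c : ℕ) (D : ℕ → Set Nd) (L : ℕ → ℕ) : Set ℝ :=
  {e | 0 ≤ e ∧ ∀ ε : ℝ, 0 < ε → ∀ᶠ i in (uf : Filter ℕ), Dens (s i) (n i) c (D i) ((2 : ℝ) ^ ((e + ε) * L i))}

variable {s : ℕ → ℕ → Z2 → Fin 2 → ℝ} {n : ℕ → ℕ} {c : ℕ} {D : ℕ → Set Nd} {L : ℕ → ℕ}

/-- the infimum belongs to the set -/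
theorem sInf_mem (hne : (enSet s n c D L).Nonempty) : sInf (enSet s n c D L) ∈ enSet s n c D L := by
  have hb : BddBelow (enSet s n c D L) := ⟨0, fun e he => he.1⟩
  refine ⟨le_csInf hne fun e he => he.1, fun ε hε => ?_⟩
  obtain ⟨e, he, hlt⟩ := exists_lt_of_csInf_lt hne (lt_add_of_pos_right (sInf (enSet s n c D L)) (half_pos hε))
  filter_upwards [he.2 (ε / 2) (half_pos hε)] with i hi
  refine Dens.mono ?_ hi
  refine Real.rpow_le_rpow_of_exponent_le (by norm_num) ?_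
  exact mul_le_mul_of_nonneg_right (by linarith) (Nat.cast_nonneg _)

/-- below the infimum the densities are not bounded -/
theorem not_dens (hL : Tendsto L (uf : Filter ℕ) atTop) (hD : ∀ᶠ i in (uf : Filter ℕ), (D i).Nonempty) (ε : ℝ)
    (hε : 0 < ε) : ∀ᶠ i in (uf : Filter ℕ),
      ¬ Dens (s i) (n i) c (D i) ((2 : ℝ) ^ ((sInf (enSet s n c D L) - ε) * L i)) := by
  have hb : BddBelow (enSet s n c D L) := ⟨0, fun e he => he.1⟩
  set e0 := sInf (enSet s n c D L) with he0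
  rcases lt_or_ge (e0 - ε) 0 with h | h
  · filter_upwards [hD, hL.eventually_gt_atTop 0] with i ⟨S, hS⟩ hi hcon
    have h1 := one_le_of_dens hcon hS
    have hi' : (0 : ℝ) < L i := by exact_mod_cast hi
    have h2 : (2 : ℝ) ^ ((e0 - ε) * L i) < 1 :=
      Real.rpow_lt_one_of_one_lt_of_neg (by norm_num) (mul_neg_of_neg_of_pos h hi')
    linarith
  · have h1 : e0 - ε ∉ enSet s n c D L := fun hmem => by
      have := csInf_le hb hmem
      linarith
    have h2 : ∃ ε' : ℝ, 0 < ε' ∧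
        ¬ ∀ᶠ i in (uf : Filter ℕ), Dens (s i) (n i) c (D i) ((2 : ℝ) ^ ((e0 - ε + ε') * L i)) := by
      by_contra hcon
      push Not at hcon
      exact h1 ⟨h, hcon⟩
    obtain ⟨ε', hε', h3⟩ := h2
    rw [← Ultrafilter.eventually_not] at h3
    filter_upwards [h3] with i hi hcon
    refine hi (Dens.mono ?_ hcon)
    refine Real.rpow_le_rpow_of_exponent_le (by norm_num) ?_
    exact mul_le_mul_of_nonneg_right (by linarith) (Nat.cast_nonneg _)

end Vale.Agent.P122.H563
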