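import Vale.Agent.P122.E.Defs
import Vale.Agent.P122.C.Val

/-! # P122 / H563 : the last step, `KTop` and `Q` against the violation (helper563)

* `lam_le` : `a K ^ 2 * lam ≤ Λ` if the nodes of level `K` do not have density `≤ lam`.
* `card_le` : `#(V.D K) * a K ^ 2 ≤ Q`.
* `viol_fin` : the finite inequality; `viol_lim` : the inequality of exponents;
* `viol_num` : `nV 0 + 3 nE K + 2 δ ≤ nV K`. -/

set_option autoImplicit false

namespace Vale.Agent.P122.H563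

open Filter Topology Finset Vale.Agent.P127 Vale.Agent.P127.U Vale.Agent.P122.C2 Vale.Agent.P122.E

section fin

variable {C : ℝ} {n K : ℕ} {F : Amp C n K} {V : Val} {ρ : ℝ} {a : ℕ → ℝ} {J : ℕ → ℕ}

theorem lam_le {Λ : ℝ} (hΛ : KTop F Λ) (h : V.Ok F ρ a J) {lam : ℝ}
    (hd : ¬ Dens F.s n K (V.D F.s n K : Set Nd) lam) : a K ^ 2 * lam ≤ Λ := by
  unfold Dens at hd
  push Not at hd
  obtain ⟨θ, u1, u2, p, v, T, U, h1, h2, h3, hU, hc⟩ := hd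
  have hp : (0 : ℝ) < u1 * u2 * 2 ^ (2 * K * n) := by
    have : (0 : ℝ) < (1 / 2 : ℝ) ^ (K * n) := by positivity
    have : 0 < u1 := by linarith
    have : 0 < u2 := by linarith
    positivity
  have h4 := hΛ θ u1 u2 p v U h1 h2 h3 fun S hS => (hU S hS).2.2
  have haK := h.apos K le_rfl
  have h5 : (U.card : ℝ) * a K ^ 2 ≤ ∑ S ∈ U, F.a K S ^ 2 := by
    calc (U.card : ℝ) * a K ^ 2 = ∑ S ∈ U, a K ^ 2 := by rw [sum_const, nsmul_eq_mul]
      _ ≤ _ := sum_le_sum fun S hS => by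
          have := (h.amp K le_rfl S (by exact_mod_cast (hU S hS).1)).1
          gcongr
  have h6 : lam * (u1 * u2 * 2 ^ (2 * K * n)) * a K ^ 2 ≤ Λ * (u1 * u2 * 2 ^ (2 * K * n)) :=
    le_trans (mul_le_mul_of_nonneg_right hc.le (by positivity)) (h5.trans h4)
  have h7 : a K ^ 2 * lam * (u1 * u2 * 2 ^ (2 * K * n)) ≤ Λ * (u1 * u2 * 2 ^ (2 * K * n)) := by linarith
  exact le_of_mul_le_mul_right h7 hp

theorem card_le {Q : ℝ} (hQ : ∀ U : Finset Nd, ∑ S ∈ U, F.a K S ^ 2 ≤ Q) (h : V.Ok F ρ a J) :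
    ((V.D F.s n K).card : ℝ) * a K ^ 2 ≤ Q := by
  refine le_trans ?_ (hQ (V.D F.s n K))
  calc ((V.D F.s n K).card : ℝ) * a K ^ 2 = ∑ S ∈ V.D F.s n K, a K ^ 2 := by rw [sum_const, nsmul_eq_mul]
    _ ≤ _ := sum_le_sum fun S hS => by
        have := (h.amp K le_rfl S hS).1
        have := h.apos K le_rfl
        gcongr

theorem sum_X_le (h : V.Ok F ρ a J) : ∑ x ∈ V.X, F.a 0 x ^ 3 ≤ 8 * V.X.card * a 0 ^ 3 := by
  calc ∑ x ∈ V.X, F.a 0 x ^ 3 ≤ ∑ x ∈ V.X, (2 * a 0) ^ 3 := sum_le_sum fun x hx => by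
        have h1 := (h.amp 0 (Nat.zero_le K) x hx).2
        have h2 := F.a0 0 x
        gcongr
    _ = _ := by
        rw [sum_const, nsmul_eq_mul]
        ring

/-- **the finite inequality** -/
theorem viol_fin {Λ Q B : ℝ} (hΛ : KTop F Λ) (hQ : ∀ U : Finset Nd, ∑ S ∈ U, F.a K S ^ 2 ≤ Q) (h : V.Ok F ρ a J)
    {lam : ℝ} (hd : ¬ Dens F.s n K (V.D F.s n K : Set Nd) lam) (hB : 0 ≤ B)
    (hv : B * Real.sqrt Λ * 2 ^ (4 * K * n) * Q ≤ ∑ x ∈ V.X, F.a 0 x ^ 3) :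
    B * Real.sqrt lam * 2 ^ (4 * K * n) * (V.D F.s n K).card * a K ^ 3 ≤ 8 * V.X.card * a 0 ^ 3 := by
  refine le_trans ?_ (hv.trans (sum_X_le h))
  have haK := h.apos K le_rfl
  have h1 : a K * Real.sqrt lam ≤ Real.sqrt Λ := by
    rw [← Real.sqrt_sq haK.le, ← Real.sqrt_mul (sq_nonneg _)]
    exact Real.sqrt_le_sqrt (lam_le hΛ h hd)
  have h2 := card_le hQ h
  have hQ0 : 0 ≤ Q := by simpa using hQ ∅
  calc B * Real.sqrt lam * 2 ^ (4 * K * n) * (V.D F.s n K).card * a K ^ 3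
      = B * (a K * Real.sqrt lam) * 2 ^ (4 * K * n) * ((V.D F.s n K).card * a K ^ 2) := by ring
    _ ≤ B * Real.sqrt Λ * 2 ^ (4 * K * n) * Q := by gcongr

end fin

/-- **the inequality of exponents** along the ultrafilter; `A = lim log (a 0 / a K) / L` -/
theorem viol_lim {C : ℝ} {K : ℕ} (hK : 1 ≤ K) {n : ℕ → ℕ} (hn : Tendsto n (uf : Filter ℕ) atTop)
    {F : ∀ i, Amp C (n i) K} {V : ℕ → Val} {ρ : ℕ → ℝ} {a : ℕ → ℕ → ℝ} {J : ℕ → ℕ → ℕ}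
    (h : ∀ᶠ i in (uf : Filter ℕ), (V i).Ok (F i) (ρ i) (a i) (J i)) {Λ Q : ℕ → ℝ}
    (hΛ : ∀ᶠ i in (uf : Filter ℕ), KTop (F i) (Λ i))
    (hQ : ∀ᶠ i in (uf : Filter ℕ), ∀ U : Finset Nd, ∑ S ∈ U, (F i).a K S ^ 2 ≤ Q i) {δ H0 HK A e : ℝ}
    (hv : ∀ ε : ℝ, 0 < ε → ∀ᶠ i in (uf : Filter ℕ),
      (2 : ℝ) ^ ((δ - ε) * (K * n i)) * Real.sqrt (Λ i) * 2 ^ (4 * K * n i) * Q i ≤ ∑ x ∈ (V i).X, (F i).a 0 x ^ 3)
    (hX : ∀ ε : ℝ, 0 < ε → ∀ᶠ i in (uf : Filter ℕ), ((V i).X.card : ℝ) ≤ (2 : ℝ) ^ ((H0 + ε) * (K * n i)))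
    (hN : ∀ ε : ℝ, 0 < ε → ∀ᶠ i in (uf : Filter ℕ),
      (2 : ℝ) ^ ((HK - ε) * (K * n i)) ≤ ((V i).D (F i).s (n i) K).card)
    (ha : ∀ ε : ℝ, 0 < ε → ∀ᶠ i in (uf : Filter ℕ), a i 0 ≤ (2 : ℝ) ^ ((A + ε) * (K * n i)) * a i K)
    (he : ∀ ε : ℝ, 0 < ε → ∀ᶠ i in (uf : Filter ℕ),
      ¬ Dens (F i).s (n i) K ((V i).D (F i).s (n i) K : Set Nd) ((2 : ℝ) ^ ((e - ε) * (K * n i)))) :
    δ + e / 2 + 4 + HK ≤ H0 + 3 * A := by
  have hKp : (0 : ℝ) < K := by exact_mod_cast hK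
  refine le_of_forall_pos_le_add fun ε hε => ?_
  set η : ℝ := ε / 8 with hη
  have hη0 : 0 < η := by positivity
  -- `8 ≤ 2 ^ (η K n)`
  have h8 : ∀ᶠ i in (uf : Filter ℕ), (3 : ℝ) ≤ η * (K * n i) := by
    have h1 : Tendsto (fun i => η * (K * (n i : ℝ))) (uf : Filter ℕ) atTop := by
      have h2 : Tendsto (fun i => (n i : ℝ)) (uf : Filter ℕ) atTop := tendsto_natCast_atTop_atTop.comp hn
      exact (h2.const_mul_atTop hKp).const_mul_atTop hη0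
    exact h1.eventually_ge_atTop 3
  obtain ⟨i, h1, h2, h3, h4, h5, h6, h7, h8, h9⟩ := (h.and (hΛ.and (hQ.and ((hv η hη0).and ((hX η hη0).and
    ((hN η hη0).and ((ha η hη0).and ((he η hη0).and h8)))))))).exists
  have hn0 : (0 : ℝ) < n i := by
    by_contra hcon
    have : (n i : ℝ) = 0 := le_antisymm (not_lt.1 hcon) (Nat.cast_nonneg _)
    rw [this] at h9
    simp at h9
    linarith
  set L : ℝ := K * n i with hL
  have hLp : 0 < L := by positivity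
  have haK := h1.apos K le_rfl
  have ha0 := h1.apos 0 (Nat.zero_le K)
  have key := viol_fin h2 h3 h1 h8 (by positivity) h4
  have e1 : Real.sqrt ((2 : ℝ) ^ ((e - η) * L)) = (2 : ℝ) ^ ((e - η) / 2 * L) := by
    rw [Real.sqrt_eq_rpow, ← Real.rpow_mul (by norm_num)]
    congr 1
    ring
  have e2 : ((2 : ℝ) ^ (4 * K * n i)) = (2 : ℝ) ^ (4 * L) := by
    rw [← Real.rpow_natCast]
    congr 1
    push_cast
    ring
  rw [e1, e2] at key
  -- divide by `a K ^ 3`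
  have g1 : (2 : ℝ) ^ ((δ - η) * L) * 2 ^ ((e - η) / 2 * L) * 2 ^ (4 * L) * 2 ^ ((HK - η) * L) ≤
      8 * 2 ^ ((H0 + η) * L) * (2 ^ ((A + η) * L)) ^ 3 := by
    have g2 : (2 : ℝ) ^ ((δ - η) * L) * 2 ^ ((e - η) / 2 * L) * 2 ^ (4 * L) * 2 ^ ((HK - η) * L) * a i K ^ 3 ≤
        8 * 2 ^ ((H0 + η) * L) * (2 ^ ((A + η) * L)) ^ 3 * a i K ^ 3 := by
      calc _ ≤ (2 : ℝ) ^ ((δ - η) * L) * 2 ^ ((e - η) / 2 * L) * 2 ^ (4 * L) *
            ((V i).D (F i).s (n i) K).card * a i K ^ 3 := by gcongr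
        _ ≤ 8 * (V i).X.card * a i 0 ^ 3 := key
        _ ≤ 8 * 2 ^ ((H0 + η) * L) * (2 ^ ((A + η) * L) * a i K) ^ 3 := by gcongr
        _ = _ := by ring
    exact le_of_mul_le_mul_right g2 (by positivity)
  have g3 : (8 : ℝ) ≤ 2 ^ (η * L) := by
    calc (8 : ℝ) = 2 ^ (3 : ℝ) := by norm_num
      _ ≤ _ := Real.rpow_le_rpow_of_exponent_le (by norm_num) h9
  have g4 : ((2 : ℝ) ^ ((A + η) * L)) ^ 3 = 2 ^ (3 * ((A + η) * L)) := by
    rw [← Real.rpow_natCast, ← Real.rpow_mul (by norm_num)]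
    congr 1
    push_cast
    ring
  have g5 : (2 : ℝ) ^ ((δ - η) * L + (e - η) / 2 * L + 4 * L + (HK - η) * L) ≤
      2 ^ (η * L + (H0 + η) * L + 3 * ((A + η) * L)) := by
    rw [Real.rpow_add (by norm_num), Real.rpow_add (by norm_num), Real.rpow_add (by norm_num),
      Real.rpow_add (by norm_num), Real.rpow_add (by norm_num), ← g4]
    refine g1.trans ?_
    gcongr
  have g6 := (Real.rpow_le_rpow_left_iff (by norm_num : (1 : ℝ) < 2)).1 g5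
  have g7 : (δ + e / 2 + 4 + HK) * L ≤ (H0 + 3 * A + ε) * L := by
    have : η * 8 = ε := by rw [hη]; ring
    nlinarith
  exact le_of_mul_le_mul_right g7 hLp

/-- the amplitudes of all levels -/
theorem amp_tel {K : ℕ} {n : ℕ → ℕ} {a : ℕ → ℕ → ℝ} {J θ : ℕ → ℝ} (h0 : ∀ᶠ i in (uf : Filter ℕ), 0 ≤ a i 0)
    (h : ∀ c, c < K → ∀ ε : ℝ, 0 < ε → ∀ᶠ i in (uf : Filter ℕ),
      a i c ≤ (2 : ℝ) ^ ((J c / 2 + θ c + ε) * (K * n i)) * a i (c + 1)) (m : ℕ) (hm : m ≤ K) :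
    ∀ ε : ℝ, 0 < ε → ∀ᶠ i in (uf : Filter ℕ),
      a i 0 ≤ (2 : ℝ) ^ ((nM J m / 2 + ∑ c ∈ range m, θ c + ε) * (K * n i)) * a i m := by
  induction m with
  | zero =>
    intro ε hε
    filter_upwards [h0] with i hi
    refine le_mul_of_one_le_left hi (Real.one_le_rpow (by norm_num) ?_)
    unfold nM
    simp only [range_zero, sum_empty, zero_div, zero_add]
    positivity
  | succ m ih =>
    intro ε hε
    filter_upwards [ih (by omega) (ε / 2) (by positivity), h m (by omega) (ε / 2) (by positivity)] with i h1 h2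
    have e1 : nM J (m + 1) = nM J m + J m := by
      unfold nM
      rw [sum_range_succ]
    rw [e1, sum_range_succ]
    refine h1.trans ?_
    calc _ ≤ (2 : ℝ) ^ ((nM J m / 2 + ∑ c ∈ range m, θ c + ε / 2) * (K * n i)) *
          (2 ^ ((J m / 2 + θ m + ε / 2) * (K * n i)) * a i (m + 1)) := by gcongr
      _ = _ := by
          rw [← mul_assoc, ← Real.rpow_add (by norm_num)]
          congr 2
          ring

/-- **the violation in the numbers of the profile** -/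
theorem viol_num {K : ℕ} (hK : 1 ≤ K) {J θ H e : ℕ → ℝ} {δ : ℝ} (he : 0 ≤ e 0)
    (h : δ + e K / 2 + 4 + H K ≤ H 0 + 3 * (nM J K / 2 + ∑ i ∈ range K, θ i)) :
    nV K H e 0 + 3 * nE K J θ H K + 2 * δ ≤ nV K H e K := by
  have hKp : (K : ℝ) ≠ 0 := by
    have : (0 : ℝ) < K := by exact_mod_cast hK
    exact this.ne'
  unfold nV nE
  rw [mul_div_assoc, mul_div_assoc, div_self hKp]
  simp only [Nat.cast_zero, mul_zero, zero_div]
  linarith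

end Vale.Agent.P122.H563
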