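import Vale.Agent.P122.H610.Stab
import Vale.Agent.P122.C.Bridge
import Vale.Agent.P122.H563.Viol

/-! # P122 / H563 : RGuni, uniform nodes (helper563)

A stable sequence has a refinement whose nodes of every level `c` have probability at most `2 ^ (-(H c - ε) L)` and number
at most `2 ^ ((H c + ε) L)`. -/

set_option autoImplicit false

namespace Vale.Agent.P122.H563

open Filter Topology Finset Vale.Agent.P127 Vale.Agent.P127.Stk Vale.Agent.P127.U Vale.Agent.P127.U.Sys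
  Vale.Agent.P122.C2 Vale.Agent.P122.E Vale.Agent.P122.H610 Vale.Agent.P122.H610.VS

variable {K : ℕ} {Z : CS K}

/-- **RGuni** -/
theorem uni (W : VS Z) (hS : ∀ W' : VS Z, W'.Le W → ∀ c, c < K → W'.Jn c = W.Jn c) : ∃ W' : VS Z, W'.Le W ∧ W'.Incl W ∧ ∃ H : ℕ → ℝ,
    H 0 = Z.lg (fun i => Real.logb 2 ((W'.V i).X.card)) ∧
    ∀ c, c ≤ K → 0 ≤ H c ∧ Unf W'.flg.S (W'.flg.N c) (H c) ∧ Cnt W'.flg.S (W'.flg.N c) (one (S := W'.flg.S)) (H c) := by
  classical
  -- number of flags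
  obtain ⟨c0, hc0⟩ := pow_unbounded_of_one_lt ((2 * (Z.C + 3 * K) + 1) ^ 2) (by norm_num : (1 : ℝ) < 2)
  have hfl : ∀ i, (Fg (W.V i) (Z.F i).s (Z.n i) K).card ≤ 2 ^ (8 * K * Z.n i + c0) := by
    intro i
    have h1 := (W.ok i).card_Fg_bd (zero_le_one.trans Z.C1)
    have h2 : ((Fg (W.V i) (Z.F i).s (Z.n i) K).card : ℝ) ≤ 2 ^ (8 * K * Z.n i + c0) := by
      refine h1.trans ?_
      rw [pow_add, mul_comm]
      gcongr
    exact_mod_cast h2
  choose V' J' H h1 h2 h3 h4 h5 using fun i => (W.ok i).unf_Fg (W.ρpos i) (fun _ => (1 : ℝ))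
    (fun _ _ => zero_le_one) (8 * K * Z.n i + c0) (hfl i)
  set ℓ : ℕ → ℕ := fun i => los (8 * K * Z.n i + c0 + 1) (Z.n i) K ^ (K + 1) with hℓ
  have hℓpos : ∀ i, 0 < ℓ i := fun i => pow_pos (los_pos (Nat.succ_pos _)) _
  have hℓ1 : ∀ i, (1 : ℝ) ≤ ℓ i := fun i => by exact_mod_cast hℓpos i
  have hbig : Z.Big fun i => ((ℓ i : ℕ) : ℝ)⁻¹ := by
    have hK0 : (0 : ℝ) < 8 * K := by
      have : (0 : ℝ) < K := by exact_mod_cast lt_of_lt_of_le Nat.zero_lt_one Z.K1
      positivity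
    have g1 := CS.Big.inv_lin (Z := Z) (8 * K) (c0 + 1) hK0 (by positivity)
    have g2 := CS.Big.inv_lin (Z := Z) 2 1 (by norm_num) (by norm_num)
    refine ((g1.mul (g2.pow K)).pow (K + 1)).mono (Eventually.of_forall fun i => le_of_eq ?_)
    simp only [hℓ, los]
    push_cast
    rw [← inv_pow, mul_inv, inv_pow]
    ring
  have hρ : Z.Big fun i => W.ρ i / (ℓ i : ℕ) := by
    refine (W.ρbig.mul hbig).mono (Eventually.of_forall fun i => le_of_eq ?_)
    rw [div_eq_mul_inv]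
  have hX : Z.Big fun i => ((V' i).X.card : ℝ) / (W.V i).X.card := by
    refine hbig.mono (Eventually.of_forall fun i => ?_)
    have g1 := h5 i
    simp only [sum_const, nsmul_eq_mul, mul_one] at g1
    have g2 : (0 : ℝ) < (W.V i).X.card := by exact_mod_cast (W.ne i).card_pos
    have g3 : (0 : ℝ) < (ℓ i : ℕ) := by exact_mod_cast hℓpos i
    rw [inv_eq_one_div, div_le_div_iff₀ g3 g2, one_mul, mul_comm]
    simp only [hℓ]
    push_cast
    linarith
  obtain ⟨W', hle, hin, hev⟩ := exists_mk W V' (fun i => W.ρ i / (ℓ i : ℕ)) J'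
    (Eventually.of_forall fun i => ⟨h1 i, (div_le_self (W.ρpos i).le (hℓ1 i)).trans (W.ρ1 i), by
      have := h2 i
      simp only [hℓ]
      push_cast at this ⊢
      exact this⟩) hρ hX
  have hJ := hS W' hle
  -- `H c ≤ m`
  have hHm : ∀ c, c ≤ K → ∀ᶠ i in (uf : Filter ℕ), H i c ≤ 8 * K * Z.n i + c0 := by
    intro c hc
    filter_upwards [hev] with i hi
    obtain ⟨f, hf⟩ := W'.fl_ne i
    have g1 := nd_D (W'.ok i) hc hf
    rw [hi.1] at g1
    have g2 := (h3 i c hc _ g1).1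
    have g3 := (W'.ok i)
    have g4 : 0 < ((Fg (W.V i) (Z.F i).s (Z.n i) K).filter fun g => H610.nd (Z.F i).s (Z.n i) K c g =
        H610.nd (Z.F i).s (Z.n i) K c f).card := wt_pos (W.ok i) hc ((h1 i).D c g1)
    have g5 : 2 ^ H i c ≤ 2 ^ (8 * K * Z.n i + c0) :=
      le_trans (Nat.le_mul_of_pos_right _ g4) (g2.trans (hfl i))
    exact (Nat.pow_le_pow_iff_right (by norm_num)).1 g5
  have hOL : ∀ c, c ≤ K → Z.OL fun i => (H i c : ℝ) := by
    intro c hc
    refine CS.OL.of_le (c := 9) (Eventually.of_forall fun i => Nat.cast_nonneg _) ?_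
    filter_upwards [hHm c hc, CS.const_le (Z := Z) (c0 : ℝ) one_pos] with i g1 g2
    have g3 : (H i c : ℝ) ≤ 8 * K * Z.n i + c0 := by exact_mod_cast g1
    rw [Z.L_eq] at g2 ⊢
    linarith
  have hUC : ∀ c, c ≤ K → 0 ≤ Z.lg (fun i => (H i c : ℝ)) ∧ Unf W'.flg.S (W'.flg.N c) (Z.lg fun i => (H i c : ℝ)) ∧
      Cnt W'.flg.S (W'.flg.N c) (one (S := W'.flg.S)) (Z.lg fun i => (H i c : ℝ)) := by
    intro c hc
    refine ⟨?_, ?_, ?_⟩
    · have := CS.lg_mono (CS.OL.const (Z := Z) 0) (hOL c hc) (Eventually.of_forall fun i => Nat.cast_nonneg _)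
      rwa [CS.lg_const] at this
    · intro ε hε
      filter_upwards [hev, card_big hJ hle (ε / 2) (by positivity), CS.lg_le (hOL c hc) (show 0 < ε / 2 by positivity)]
        with i hi g1 g2 ω
      have e1 : (W'.flg.S.P i).pr (W'.flg.N c i) (W'.flg.N c i ω) =
          (((W'.fl i).filter fun g => H610.nd (Z.F i).s (Z.n i) K c g = H610.nd (Z.F i).s (Z.n i) K c ω.1).card : ℝ) /
            (W'.fl i).card := by
        refine (uL_pr' (W'.fl_ne i) (fun g => H610.nd (Z.F i).s (Z.n i) K c g)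
          (H610.nd (Z.F i).s (Z.n i) K c ω.1)).trans ?_
        congr!
      have hLe : W'.flg.S.L i = K * Z.n i := rfl
      have hLr : (W'.flg.S.L i : ℝ) = Z.L i := rfl
      rw [e1, hLr]
      set v := H610.nd (Z.F i).s (Z.n i) K c ω.1 with hv
      have k1 : v ∈ (V' i).D (Z.F i).s (Z.n i) c := by
        have := nd_D (W'.ok i) hc ω.2
        rwa [hi.1] at this
      have k2 := (h3 i c hc v k1).1
      have k3 : ((W'.fl i).filter fun g => H610.nd (Z.F i).s (Z.n i) K c g = v).card ≤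
          ((Fg (W.V i) (Z.F i).s (Z.n i) K).filter fun g => H610.nd (Z.F i).s (Z.n i) K c g = v).card :=
        wt_le (hin i) c v
      have f1 : (0 : ℝ) < (W'.fl i).card := by exact_mod_cast (W'.fl_ne i).card_pos
      have f2 : (0 : ℝ) < (W.fl i).card := by exact_mod_cast (W.fl_ne i).card_pos
      rw [div_le_iff₀ f1]
      have k4 : (2 : ℝ) ^ ((H i c : ℕ) : ℝ) * (((W'.fl i).filter fun g => H610.nd (Z.F i).s (Z.n i) K c g = v).card : ℝ) ≤
          (W.fl i).card := by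
        rw [Real.rpow_natCast]
        have : 2 ^ H i c * ((W'.fl i).filter fun g => H610.nd (Z.F i).s (Z.n i) K c g = v).card ≤ (W.fl i).card :=
          (Nat.mul_le_mul_left _ k3).trans k2
        exact_mod_cast this
      have k5 : ((W.fl i).card : ℝ) ≤ 2 ^ (ε / 2 * Z.L i) * (W'.fl i).card := by
        have q1 : (2 : ℝ) ^ (-(ε / 2 * Z.L i)) ≤ ((W'.fl i).card : ℝ) / (W.fl i).card := by
          refine le_trans (Real.rpow_le_rpow_of_exponent_le (by norm_num) ?_) g1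
          have := mul_le_mul_of_nonneg_left (Z.n_le_L i) (show 0 ≤ ε / 2 by positivity)
          linarith
        rw [le_div_iff₀ f2, Real.rpow_neg (by norm_num)] at q1
        have q2 : (0 : ℝ) < 2 ^ (ε / 2 * Z.L i) := by positivity
        rw [inv_mul_le_iff₀ q2] at q1
        exact q1
      have k6 : (2 : ℝ) ^ ((Z.lg (fun i => (H i c : ℝ)) - ε / 2) * Z.L i) ≤ 2 ^ ((H i c : ℕ) : ℝ) :=
        Real.rpow_le_rpow_of_exponent_le (by norm_num) g2
      have k7 : (2 : ℝ) ^ ((Z.lg (fun i => (H i c : ℝ)) - ε / 2) * Z.L i) *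
          (((W'.fl i).filter fun g => H610.nd (Z.F i).s (Z.n i) K c g = v).card : ℝ) ≤
            2 ^ (ε / 2 * Z.L i) * (W'.fl i).card :=
        le_trans (mul_le_mul_of_nonneg_right k6 (Nat.cast_nonneg _)) (k4.trans k5)
      have k8 : (0 : ℝ) < 2 ^ ((Z.lg (fun i => (H i c : ℝ)) - ε / 2) * Z.L i) := by positivity
      refine le_of_mul_le_mul_left ?_ k8
      refine k7.trans (le_of_eq ?_)
      rw [← mul_assoc, ← Real.rpow_add (by norm_num)]
      congr 2
      ring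
    · intro ε hε
      filter_upwards [hev, CS.le_lg (hOL c hc) (show 0 < ε / 2 by positivity),
        CS.const_le (Z := Z) 1 (show 0 < ε / 2 by positivity)] with i hi g1 g2 ω _
      have hLr : (W'.flg.S.L i : ℝ) = Z.L i := rfl
      refine ⟨(V' i).D (Z.F i).s (Z.n i) c, ?_, fun ω' _ _ => ?_⟩
      · rw [hLr]
        have k1 : (((V' i).D (Z.F i).s (Z.n i) c).card : ℝ) ≤ 2 ^ (((H i c + 1 : ℕ)) : ℝ) := by
          rw [Real.rpow_natCast]
          exact_mod_cast h4 i c hc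
        refine k1.trans (Real.rpow_le_rpow_of_exponent_le (by norm_num) ?_)
        push_cast
        linarith
      · have := nd_D (W'.ok i) hc ω'.2
        rwa [hi.1] at this
  -- `H 0`
  have hX1 : ∀ᶠ i in (uf : Filter ℕ), Real.logb 2 ((W'.V i).X.card) ≤ (H i 0 : ℝ) + 1 := by
    filter_upwards [hev] with i hi
    have g1 : ((W'.V i).X.card : ℝ) ≤ 2 ^ (H i 0 + 1) := by
      rw [hi.1]
      exact_mod_cast h4 i 0 (Nat.zero_le K)
    have g2 : (0 : ℝ) < (W'.V i).X.card := by exact_mod_cast (W'.ne i).card_pos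
    have g3 := Real.logb_le_logb_of_le (by norm_num : (1:ℝ) < 2) g2 g1
    rw [← Real.rpow_natCast, Real.logb_rpow (by norm_num) (by norm_num)] at g3
    push_cast at g3
    exact g3
  have hX0 : ∀ᶠ i in (uf : Filter ℕ), 0 ≤ Real.logb 2 ((W'.V i).X.card) := Eventually.of_forall fun i => by
    refine Real.logb_nonneg (by norm_num) ?_
    exact_mod_cast (W'.ne i).card_pos
  have hXOL : Z.OL fun i => Real.logb 2 ((W'.V i).X.card) := by
    obtain ⟨b, hb⟩ := (hOL 0 (Nat.zero_le K)).add (CS.OL.const (Z := Z) 1)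
    refine CS.OL.of_le (c := b) hX0 ?_
    filter_upwards [hb, hX1, Z.L_pos] with i g1 g2 g3
    have g4 := (abs_le.1 g1).2
    rw [div_le_iff₀ g3] at g4
    linarith
  refine ⟨W', hle, hin, fun c => Z.lg fun i => (H i c : ℝ), ?_, hUC⟩
  refine le_antisymm ?_ ?_
  · refine CS.ge_of_ev hXOL fun ε hε => ?_
    filter_upwards [card_D_ge W' (Nat.zero_le K) (hUC 0 (Nat.zero_le K)).2.1 ε hε] with i g1
    have g2 : (0 : ℝ) < (W'.V i).X.card := by exact_mod_cast (W'.ne i).card_pos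
    have g3 : (2 : ℝ) ^ ((Z.lg (fun i => (H i 0 : ℝ)) - ε) * (K * Z.n i)) ≤ (W'.V i).X.card := g1
    rw [← Real.le_logb_iff_rpow_le (by norm_num) g2] at g3
    rwa [Z.L_eq]
  · have g1 := CS.lg_mono hXOL ((hOL 0 (Nat.zero_le K)).add (CS.OL.const (Z := Z) 1)) hX1
    rw [CS.lg_add (hOL 0 (Nat.zero_le K)) (CS.OL.const (Z := Z) 1), CS.lg_const, add_zero] at g1
    exact g1

end Vale.Agent.P122.H563
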