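import Vale.Agent.P122.C.RVDefs

/-! # P122 / H563 : the arithmetic of the profile (helper563)

Numbers of the regular structure on the mesh (unit of exponents `L = K n`): `H c` entropy of the nodes of level `c`,
`e c` counted excess, `J c` branching, `th c` amplitude loss, `al c` thickness exponent, `jf c` normal branching of the
level `c`, `D i j` the defect of the ball `B_i` in the tube `S_j`.

`V c = H c + 4 c / K - e c`, `M c = ∑_{<c} J`, `E c = 4 c / K - (H 0 + M c - H c) - 2 ∑_{<c} th`,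
`g c = ∑_{<c, thin} jf`.  `prof_of` : the block inequalities give `Prof`. -/

set_option autoImplicit false

namespace Vale.Agent.P122.H563

open Finset Vale.Agent.P122.C

variable (K : ℕ) (H e J th : ℕ → ℝ)

/-- the box functional -/
noncomputable def Vf (c : ℕ) : ℝ := H c + 4 * (c : ℝ) / K - e c

/-- partial sums -/
noncomputable def Ms (J : ℕ → ℝ) (c : ℕ) : ℝ := ∑ k ∈ range c, J k

/-- `E = Δ - 2 Θ` -/
noncomputable def Ef (c : ℕ) : ℝ := 4 * (c : ℝ) / K - (H 0 + Ms J c - H c) - 2 * Ms th c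

open Classical in
/-- normal branching of the thin levels -/
noncomputable def jfT (κ c1 : ℝ) (e al jf : ℕ → ℝ) (c : ℕ) : ℝ :=
  if c1 ≤ e c ∧ al c - (c : ℝ) / K ≤ κ * e c then jf c else 0

theorem Ms_zero (J : ℕ → ℝ) : Ms J 0 = 0 := by simp [Ms]

theorem Ms_sub (J : ℕ → ℝ) {i j : ℕ} (h : i ≤ j) : Ms J j - Ms J i = ∑ k ∈ Ico i j, J k := by
  unfold Ms
  rw [Finset.sum_Ico_eq_sub _ h]

theorem Ms_mono {J : ℕ → ℝ} {i j : ℕ} (h : i ≤ j) (hJ : ∀ c, i ≤ c → c < j → 0 ≤ J c) : Ms J i ≤ Ms J j := by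
  have h1 := Ms_sub J h
  have h2 : 0 ≤ ∑ k ∈ Ico i j, J k := Finset.sum_nonneg fun k hk => by
    rw [Finset.mem_Ico] at hk
    exact hJ k hk.1 hk.2
  linarith

theorem Ms_lip {J : ℕ → ℝ} {i j : ℕ} {a : ℝ} (h : i ≤ j) (hJ : ∀ c, i ≤ c → c < j → J c ≤ a) :
    Ms J j - Ms J i ≤ a * ((j : ℝ) - i) := by
  rw [Ms_sub J h]
  calc ∑ k ∈ Ico i j, J k ≤ ∑ k ∈ Ico i j, a := Finset.sum_le_sum fun k hk => by
        rw [Finset.mem_Ico] at hk
        exact hJ k hk.1 hk.2
    _ = a * ((j : ℝ) - i) := by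
        rw [Finset.sum_const, Nat.card_Ico, nsmul_eq_mul, Nat.cast_sub h]
        ring

theorem Ef_zero : Ef K H J th 0 = 0 := by
  unfold Ef
  rw [Ms_zero, Ms_zero]
  simp

/-- on a window of thin levels the thin branching is the branching -/
theorem jfT_sub {κ c1 : ℝ} {e al jf : ℕ → ℝ} {a b : ℕ} (h : a ≤ b)
    (ht : ∀ c, a ≤ c → c < b → c1 ≤ e c ∧ al c - (c : ℝ) / K ≤ κ * e c) :
    Ms (jfT K κ c1 e al jf) b - Ms (jfT K κ c1 e al jf) a = Ms jf b - Ms jf a := by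
  rw [Ms_sub _ h, Ms_sub _ h]
  refine Finset.sum_congr rfl fun c hc => ?_
  rw [Finset.mem_Ico] at hc
  unfold jfT
  rw [if_pos (ht c hc.1 hc.2)]

/-- **the profile from the block inequalities** -/
theorem prof_of {C0 C κ c1 : ℝ} {K : ℕ} {H e J th al jf : ℕ → ℝ} {D : ℕ → ℕ → ℝ} (hK : 1 ≤ K) (hC0 : 0 ≤ C0)
    (hC : 2 * C0 + 6 ≤ C)
    (hJ0 : ∀ c, c < K → 0 ≤ J c) (hJ2 : ∀ c, c < K → J c ≤ 2 / K)
    (hj0 : ∀ c, c < K → 0 ≤ jf c) (hj2 : ∀ c, c < K → jf c ≤ 2 / K)
    (he0 : ∀ c, c ≤ K → 0 ≤ e c) (hal : ∀ c, c ≤ K → (c : ℝ) / K ≤ al c)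
    -- E5 : Lipschitz bounds
    (heL : ∀ i j, i ≤ K → j ≤ K → |e i - e j| ≤ C0 * |(i : ℝ) - j| / K + C0 / K)
    (hVL : ∀ i j, i ≤ K → j ≤ K → Vf K H e i - Vf K H e j ≤ C0 * |(i : ℝ) - j| / K + C0 / K)
    -- E2 : the defect
    (hD0 : ∀ i j, i ≤ j → j ≤ K → 0 ≤ D i j)
    (hD2 : ∀ i j, i ≤ j → j ≤ K → D i j ≤ 2 * ((j : ℝ) - i) / K)
    (hDt : ∀ c i j, c ≤ i → i ≤ j → j ≤ K → D c j ≤ D c i + D i j)
    (hDE : ∀ i j, i ≤ j → j ≤ K → D i j ≤ Ef K H J th j - Ef K H J th i)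
    -- E6 : fat box of the same level
    (hA : ∀ i j, i ≤ j → j ≤ 2 * i → j ≤ K → (j : ℝ) / K ≤ al i →
      Vf K H e j ≤ Vf K H e i + 3 * D i j + C0 / K)
    -- E7 : the tubes themselves
    (hS : ∀ i j, i ≤ j → j ≤ 2 * i → j ≤ K →
      Vf K H e j ≤ Vf K H e i + e i + 3 * D i j + (Ef K H J th j - Ef K H J th i - D i j) +
        ((Ms J j - Ms J i) - (Ms J i - Ms J (2 * i - j))) + C0 / K)
    -- E9 : thin planks
    (hP : ∀ i j u, i ≤ j → j ≤ 2 * i → j ≤ K → i + u ≤ j → ((j : ℝ) - i) / K ≤ κ * c1 →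
      (∀ c, 2 * i - j ≤ c → c ≤ j → c1 ≤ e c ∧ al c - (c : ℝ) / K ≤ κ * e c) →
      |al i - ((i : ℝ) + u) / K| ≤ 1 / K →
      Vf K H e j ≤ Vf K H e i + 3 * D i j + (Ef K H J th j - Ef K H J th i - D i j) +
        ((Ms jf j - Ms jf (i + u)) - (Ms jf (i - u) - Ms jf (2 * i - j))) + C0 / K) :
    Prof C κ c1 K (Vf K H e) (Ef K H J th) (Ms J) e al (Ms (jfT K κ c1 e al jf)) := by
  have hKp : (0 : ℝ) < K := by exact_mod_cast hK
  have hjT0 : ∀ c, c < K → 0 ≤ jfT K κ c1 e al jf c := fun c hc => by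
    unfold jfT
    split_ifs
    · exact hj0 c hc
    · exact le_rfl
  have hjT2 : ∀ c, c < K → jfT K κ c1 e al jf c ≤ 2 / K := fun c hc => by
    unfold jfT
    split_ifs
    · exact hj2 c hc
    · positivity
  have hEm : ∀ i j, i ≤ j → j ≤ K → Ef K H J th i ≤ Ef K H J th j := fun i j hij hj => by
    have := hD0 i j hij hj
    have := hDE i j hij hj
    linarith
  have hc : C0 / K ≤ C / K := div_le_div_of_nonneg_right (by linarith) hKp.le
  have hc' : ∀ x : ℝ, 0 ≤ x → C0 * x / K ≤ C * x / K := fun x hx =>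
    div_le_div_of_nonneg_right (mul_le_mul_of_nonneg_right (by linarith) hx) hKp.le
  have hsub : ∀ i j : ℕ, i ≤ j → (0 : ℝ) ≤ (j : ℝ) - i := fun i j h => by
    have : (i : ℝ) ≤ j := by exact_mod_cast h
    linarith
  -- increments of `V`
  have hVstep : ∀ i j, i ≤ j → j ≤ K → Vf K H e j ≤ Vf K H e i + C0 * ((j : ℝ) - i) / K + C0 / K :=
    fun i j hij hj => by
      have h1 := hVL j i hj (hij.trans hj)
      rw [abs_of_nonneg (hsub i j hij)] at h1
      linarith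
  refine ⟨Ef_zero K H J th, hEm, fun i j hij hj => Ms_mono hij fun c _ hc => hJ0 c (hc.trans_le hj),
    fun i j hij hj => ?_, fun i j hij hj => Ms_mono hij fun c _ hc => hjT0 c (hc.trans_le hj),
    fun i j hij hj => ?_, he0, fun i j hi hj => ?_, hal, fun i hi => ?_, fun i j hij _ hj => ?_,
    fun c i j hij h2 hj hc2 hcK hal' => ?_, fun i j hij h2 hj => ?_,
    fun i j u hij h2 hj hu hκ ht ha => ?_⟩
  · have := Ms_lip (J := J) (a := 2 / K) hij fun c _ hc => hJ2 c (hc.trans_le hj)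
    calc Ms J j - Ms J i ≤ 2 / K * ((j : ℝ) - i) := this
      _ = 2 * ((j : ℝ) - i) / K := by ring
  · have := Ms_lip (J := jfT K κ c1 e al jf) (a := 2 / K) hij fun c _ hc => hjT2 c (hc.trans_le hj)
    calc _ ≤ 2 / K * ((j : ℝ) - i) := this
      _ = 2 * ((j : ℝ) - i) / K := by ring
  · have h1 := heL i j hi hj
    have h2 := hc' |(i : ℝ) - j| (abs_nonneg _)
    linarith
  · have h1 := hVstep 0 i (Nat.zero_le i) hi
    have h2 := hEm 0 i (Nat.zero_le i) hi
    rw [Ef_zero] at h2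
    have h3 := hc' ((i : ℝ) - (0 : ℕ)) (hsub 0 i (Nat.zero_le i))
    rw [Nat.cast_zero, sub_zero] at h1 h3
    linarith
  · have h1 := hVstep i j hij hj
    have h2 := hEm i j hij hj
    have h3 := hc' ((j : ℝ) - i) (hsub i j hij)
    linarith
  · -- (A) with a neighbouring level
    have hi : i ≤ K := hij.trans hj
    rcases le_or_gt c j with hcj | hcj
    · have h1 := hA c j hcj hc2 hj hal'
      have h2 := hVL c i hcK hi
      have h3 : C0 * |(c : ℝ) - i| / K + 6 * |(c : ℝ) - i| / K ≤ C * |(c : ℝ) - i| / K := by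
        rw [← add_div, ← add_mul]
        exact div_le_div_of_nonneg_right (mul_le_mul_of_nonneg_right (by linarith) (abs_nonneg _)) hKp.le
      have h3' : C0 / K + C0 / K ≤ C / K := by
        rw [← add_div]
        exact div_le_div_of_nonneg_right (by linarith) hKp.le
      have h5 : (0 : ℝ) ≤ 6 * |(c : ℝ) - i| / K := by positivity
      have hD : D c j ≤ 2 * |(c : ℝ) - i| / K + (Ef K H J th j - Ef K H J th i) := by
        rcases le_or_gt c i with hci | hci
        · have g1 := hDt c i j hci hij hj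
          have g2 := hD2 c i hci hi
          have g3 := hDE i j hij hj
          have g4 : (i : ℝ) - c = |(c : ℝ) - i| := by
            rw [abs_sub_comm, abs_of_nonneg (hsub c i hci)]
          rw [g4] at g2
          linarith
        · have g1 := hDE c j hcj hj
          have g2 := hEm i c hci.le hcK
          have g3 : (0 : ℝ) ≤ 2 * |(c : ℝ) - i| / K := by positivity
          linarith
      have h6 : 2 * |(c : ℝ) - i| / K * 3 = 6 * |(c : ℝ) - i| / K := by ring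
      linarith
    · have h1 := hVstep i j hij hj
      have h2 := hEm i j hij hj
      have h3 : C0 * ((j : ℝ) - i) / K ≤ C * |(c : ℝ) - i| / K := by
        have g1 : (j : ℝ) ≤ c := by exact_mod_cast hcj.le
        have g2 := hsub i j hij
        have g3 : (j : ℝ) - i ≤ |(c : ℝ) - i| := by
          rw [abs_of_nonneg (by linarith)]
          linarith
        refine div_le_div_of_nonneg_right ?_ hKp.le
        have g4 : C0 * ((j : ℝ) - i) ≤ C0 * |(c : ℝ) - i| := mul_le_mul_of_nonneg_left g3 hC0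
        have g5 : C0 * |(c : ℝ) - i| ≤ C * |(c : ℝ) - i| :=
          mul_le_mul_of_nonneg_right (by linarith) (abs_nonneg _)
        linarith
      linarith
  · have h1 := hS i j hij h2 hj
    have h3 := hD0 i j hij hj
    have h4 := hDE i j hij hj
    linarith
  · have h1 := hP i j u hij h2 hj hu hκ ht ha
    have h3 := hD0 i j hij hj
    have h4 := hDE i j hij hj
    have g1 := jfT_sub K (jf := jf) (a := i + u) (b := j) hu fun c hc hcj => ht c (by omega) hcj.le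
    have g2 := jfT_sub K (jf := jf) (a := 2 * i - j) (b := i - u) (by omega) fun c hc hcj => ht c hc (by omega)
    rw [g1, g2]
    linarith

/-- **the violation in terms of the profile**: `a_0 / a_K = 2 ^ ((M K / 2 + Θ K) L)`, `#X ≈ 2 ^ (H 0 L)`,
`Q ≥ 2 ^ (H K L) a_K ^ 2`, `Λ ≥ 2 ^ (e K L) a_K ^ 2` and `#X a_0 ^ 3 ≥ 2 ^ ((δ + 4) L) Λ ^ (1/2) Q`. -/
theorem viol_of {K : ℕ} (hK : 1 ≤ K) {H e J th : ℕ → ℝ} {δ : ℝ} (he : 0 ≤ e 0)
    (h : δ + e K / 2 + 4 + H K ≤ H 0 + 3 * (Ms J K / 2 + Ms th K)) :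
    Vf K H e 0 + 3 * Ef K H J th K + 2 * δ ≤ Vf K H e K := by
  have hKp : (K : ℝ) ≠ 0 := by
    have : (0 : ℝ) < K := by exact_mod_cast hK
    exact this.ne'
  unfold Vf Ef
  rw [mul_div_assoc, mul_div_assoc, div_self hKp]
  simp only [Nat.cast_zero, mul_zero, zero_div]
  linarith

end Vale.Agent.P122.H563
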